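import Mathlib

/-!
# Flows composed of shears with disjoint time supports

On the time slot `[k/10, (k+1)/10]` the velocity field is `θ k t * h k P` in the direction `d k`,
and `h k` does not depend on the coordinate `d k`.  All trajectories are explicit.
-/

set_option autoImplicit false

open Set

namespace Vale.Agent.P113.H968

/-- Points of `ℝ³`. -/
abbrev V3 : Type := Fin 3 → ℝ

/-- Data of a sequence of shears: profiles with primitives, amplitudes, directions. -/
structure Sched where
  /-- time profile of the slot `k` -/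
  θ : ℕ → ℝ → ℝ
  /-- primitive of the time profile of the slot `k` -/
  Th : ℕ → ℝ → ℝ
  /-- amplitude in the slot `k` -/
  h : ℕ → V3 → ℝ
  /-- direction of the slot `k` -/
  d : ℕ → Fin 3
  /-- `Th k` is a primitive of `θ k` -/
  hasDerivAt_Th : ∀ k t, HasDerivAt (Th k) (θ k t) t
  /-- normalisation of the primitive -/
  Th_left : ∀ k : ℕ, Th k (k / 10) = 0
  /-- the amplitude does not depend on the coordinate in the direction of the shear -/
  indep : ∀ k P s, h k (Function.update P (d k) s) = h k P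

namespace Sched

variable (S : Sched)

/-- `u` is given by the schedule for nonnegative times. -/
def Gives (u : ℝ → V3 → V3) : Prop :=
  ∀ k : ℕ, ∀ t ∈ Icc (k / 10 : ℝ) ((k + 1) / 10), ∀ P,
    u t P = Pi.single (S.d k) (S.θ k t * S.h k P)

/-- The position after a part `τ` of the shear `k`. -/
noncomputable def shear (k : ℕ) (τ : ℝ) (P : V3) : V3 := P + Pi.single (S.d k) (τ * S.h k P)

theorem shear_eq_update (k : ℕ) (τ : ℝ) (P : V3) :
    S.shear k τ P = Function.update P (S.d k) (P (S.d k) + τ * S.h k P) := by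
  funext j
  unfold shear
  by_cases hj : j = S.d k
  · subst hj; simp
  · simp [hj]

theorem h_shear (k : ℕ) (τ : ℝ) (P : V3) : S.h k (S.shear k τ P) = S.h k P := by
  rw [shear_eq_update, S.indep]

/-- Every solution has the explicit form on every slot. -/
theorem sol_eq {u : ℝ → V3 → V3} (hu : S.Gives u) {X : ℝ → V3}
    (hX : ∀ t, 0 ≤ t → HasDerivWithinAt X (u t (X t)) (Ici 0) t) (k : ℕ) {t : ℝ}
    (ht : t ∈ Icc (k / 10 : ℝ) ((k + 1) / 10)) :
    X t = S.shear k (S.Th k t) (X (k / 10)) := by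
  have hk0 : (0 : ℝ) ≤ k / 10 := by positivity
  have hcont : ContinuousOn X (Icc (k / 10 : ℝ) ((k + 1) / 10)) := fun s hs =>
    ((hX s (hk0.trans hs.1)).continuousWithinAt).mono
      fun r hr => hk0.trans hr.1
  have hder : ∀ s ∈ Ico (k / 10 : ℝ) ((k + 1) / 10),
      HasDerivWithinAt X (Pi.single (S.d k) (S.θ k s * S.h k (X s))) (Ici s) s := by
    intro s hs
    have h1 := (hX s (hk0.trans hs.1)).mono (Ici_subset_Ici.2 (hk0.trans hs.1))
    rwa [hu k s ⟨hs.1, hs.2.le⟩] at h1
  have hcoord : ∀ j, j ≠ S.d k → ∀ s ∈ Icc (k / 10 : ℝ) ((k + 1) / 10),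
      X s j = X (k / 10) j := by
    intro j hj
    refine constant_of_has_deriv_right_zero (f := fun s => X s j) ?_ ?_
    · exact fun s hs => ((continuous_apply j).continuousAt.comp_continuousWithinAt (hcont s hs))
    · intro s hs
      have h1 := (hasDerivWithinAt_pi.1 (hder s hs)) j
      rwa [Pi.single_eq_of_ne hj] at h1
  have hupd : ∀ s ∈ Icc (k / 10 : ℝ) ((k + 1) / 10),
      X s = Function.update (X (k / 10)) (S.d k) (X s (S.d k)) := by
    intro s hs
    funext j
    by_cases hj : j = S.d k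
    · subst hj; simp
    · rw [Function.update_of_ne hj, hcoord j hj s hs]
  have hh : ∀ s ∈ Icc (k / 10 : ℝ) ((k + 1) / 10), S.h k (X s) = S.h k (X (k / 10)) := by
    intro s hs
    rw [hupd s hs, S.indep]
  have hlast : ∀ s ∈ Icc (k / 10 : ℝ) ((k + 1) / 10),
      X s (S.d k) - S.Th k s * S.h k (X (k / 10)) =
        X (k / 10) (S.d k) - S.Th k (k / 10) * S.h k (X (k / 10)) := by
    refine constant_of_has_deriv_right_zero
      (f := fun s => X s (S.d k) - S.Th k s * S.h k (X (k / 10))) ?_ ?_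
    · refine ContinuousOn.sub ?_ ?_
      · exact fun s hs => ((continuous_apply (S.d k)).continuousAt.comp_continuousWithinAt
          (hcont s hs))
      · exact fun s _ => (((S.hasDerivAt_Th k s).continuousAt).mul
          continuousAt_const).continuousWithinAt
    · intro s hs
      have h1 := (hasDerivWithinAt_pi.1 (hder s hs)) (S.d k)
      rw [Pi.single_eq_same, hh s ⟨hs.1, hs.2.le⟩] at h1
      have h2 := ((S.hasDerivAt_Th k s).mul_const (S.h k (X (k / 10)))).hasDerivWithinAt
        (s := Ici s)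
      have h3 := h1.sub h2
      rw [sub_self] at h3
      exact h3
  rw [shear_eq_update, hupd t ht]
  congr 1
  have h1 := hlast t ht
  rw [S.Th_left] at h1
  linarith

/-- Total displacement factor of the slot `k`. -/
noncomputable def mass (k : ℕ) : ℝ := S.Th k ((k + 1) / 10)

/-- Positions at the times `k / 10`. -/
noncomputable def pos (a : V3) : ℕ → V3
  | 0 => a
  | k + 1 => S.shear k (S.mass k) (pos a k)

theorem pos_succ (a : V3) (k : ℕ) : S.pos a (k + 1) = S.shear k (S.mass k) (S.pos a k) := rfl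

/-- Positions at the grid times for every solution. -/
theorem sol_grid {u : ℝ → V3 → V3} (hu : S.Gives u) {X : ℝ → V3}
    (hX : ∀ t, 0 ≤ t → HasDerivWithinAt X (u t (X t)) (Ici 0) t) (k : ℕ) :
    X (k / 10) = S.pos (X 0) k := by
  induction k with
  | zero => simp [pos]
  | succ k ih =>
    have h1 := S.sol_eq hu hX k (t := (k + 1) / 10) ⟨by gcongr; simp, le_rfl⟩
    rw [Nat.cast_succ, h1, pos, ih, mass]

/-- Explicit form of every solution. -/
theorem sol_eq_pos {u : ℝ → V3 → V3} (hu : S.Gives u) {X : ℝ → V3}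
    (hX : ∀ t, 0 ≤ t → HasDerivWithinAt X (u t (X t)) (Ici 0) t) (k : ℕ) {t : ℝ}
    (ht : t ∈ Icc (k / 10 : ℝ) ((k + 1) / 10)) :
    X t = S.shear k (S.Th k t) (S.pos (X 0) k) := by
  rw [← S.sol_grid hu hX k]
  exact S.sol_eq hu hX k ht

/-- The explicit trajectory. -/
noncomputable def traj (a : V3) (t : ℝ) : V3 :=
  S.shear ⌊10 * t⌋₊ (S.Th ⌊10 * t⌋₊ t) (S.pos a ⌊10 * t⌋₊)

theorem traj_eq (a : V3) (k : ℕ) {t : ℝ} (ht : t ∈ Icc (k / 10 : ℝ) ((k + 1) / 10)) :
    S.traj a t = S.shear k (S.Th k t) (S.pos a k) := by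
  rcases eq_or_lt_of_le ht.2 with h | h
  · have h1 : ⌊10 * t⌋₊ = k + 1 := by
      rw [h, mul_div_cancel₀ _ (by norm_num : (10 : ℝ) ≠ 0)]
      exact_mod_cast Nat.floor_natCast (k + 1)
    unfold traj
    rw [h1, h]
    have h2 : S.Th (k + 1) ((k + 1) / 10) = 0 := by
      have := S.Th_left (k + 1)
      rwa [Nat.cast_succ] at this
    rw [h2, pos, mass]
    unfold shear
    simp
  · have h0 : (0 : ℝ) ≤ k / 10 := by positivity
    have h1 : ⌊10 * t⌋₊ = k := by
      rw [Nat.floor_eq_iff (by linarith [ht.1])]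
      constructor
      · linarith [ht.1]
      · linarith
    unfold traj
    rw [h1]

theorem hasDerivAt_shear (a : V3) (k : ℕ) (t : ℝ) :
    HasDerivAt (fun s => S.shear k (S.Th k s) a) (Pi.single (S.d k) (S.θ k t * S.h k a)) t := by
  rw [hasDerivAt_pi]
  intro j
  unfold shear
  by_cases hj : j = S.d k
  · subst hj
    simp only [Pi.add_apply, Pi.single_eq_same]
    exact ((S.hasDerivAt_Th k t).mul_const _).const_add _
  · simp only [Pi.add_apply, Pi.single_eq_of_ne hj, add_zero]
    exact hasDerivAt_const _ _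

theorem traj_zero (a : V3) : S.traj a 0 = a := by
  have h := S.traj_eq a 0 (t := 0) ⟨by simp, by norm_num⟩
  rw [h]
  have : S.Th 0 0 = 0 := by
    have := S.Th_left 0
    simpa using this
  rw [this]
  unfold shear
  simp [pos]

/-- The explicit trajectory is a solution. -/
theorem traj_sol {u : ℝ → V3 → V3} (hu : S.Gives u) (a : V3) (t : ℝ) (ht : 0 ≤ t) :
    HasDerivWithinAt (S.traj a) (u t (S.traj a t)) (Ici 0) t := by
  set k := ⌊10 * t⌋₊ with hk
  have hk1 : (k : ℝ) ≤ 10 * t := Nat.floor_le (by linarith)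
  have hk2 : 10 * t < k + 1 := Nat.lt_floor_add_one _
  -- right derivative
  have hR : HasDerivWithinAt (S.traj a) (u t (S.traj a t)) (Ici t) t := by
    have hmem : t ∈ Icc (k / 10 : ℝ) ((k + 1) / 10) := ⟨by linarith, by linarith⟩
    have h1 : u t (S.traj a t) = Pi.single (S.d k) (S.θ k t * S.h k (S.pos a k)) := by
      rw [hu k t hmem, S.traj_eq a k hmem, S.h_shear]
    rw [h1]
    refine ((S.hasDerivAt_shear (S.pos a k) k t).hasDerivWithinAt (s := Ici t)).congr_of_eventuallyEq
      ?_ (S.traj_eq a k hmem)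
    have : Ico t ((k + 1) / 10) ∈ nhdsWithin t (Ici t) :=
      Ico_mem_nhdsGE (by linarith)
    filter_upwards [this] with s hs
    exact S.traj_eq a k ⟨hmem.1.trans hs.1, hs.2.le⟩
  rcases eq_or_lt_of_le ht with h0 | h0
  · rw [← h0] at hR ⊢
    exact hR
  -- left derivative
  have hL : HasDerivWithinAt (S.traj a) (u t (S.traj a t)) (Iic t) t := by
    rcases eq_or_lt_of_le hk1 with h8 | h8
    · -- `t` is a grid point
      obtain ⟨j, hj⟩ : ∃ j, k = j + 1 := by
        rcases Nat.eq_zero_or_pos k with hz | hz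
        · rw [hz] at h8
          simp at h8
          exact absurd h8.symm (by linarith [h0])
        · exact ⟨k - 1, by omega⟩
      have htj : t = (j + 1) / 10 := by
        rw [hj] at h8
        push_cast at h8
        linarith
      have hmem : t ∈ Icc (j / 10 : ℝ) ((j + 1) / 10) := by
        rw [htj]
        exact ⟨by gcongr; simp, le_rfl⟩
      have h1 : u t (S.traj a t) = Pi.single (S.d j) (S.θ j t * S.h j (S.pos a j)) := by
        rw [hu j t hmem, S.traj_eq a j hmem, S.h_shear]
      rw [h1]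
      refine ((S.hasDerivAt_shear (S.pos a j) j t).hasDerivWithinAt
        (s := Iic t)).congr_of_eventuallyEq ?_ (S.traj_eq a j hmem)
      have : Ioc (j / 10 : ℝ) t ∈ nhdsWithin t (Iic t) :=
        Ioc_mem_nhdsLE (by rw [htj]; gcongr; simp)
      filter_upwards [this] with s hs
      exact S.traj_eq a j ⟨hs.1.le, hs.2.trans hmem.2⟩
    · have hmem : t ∈ Icc (k / 10 : ℝ) ((k + 1) / 10) := ⟨by linarith, by linarith⟩
      have h1 : u t (S.traj a t) = Pi.single (S.d k) (S.θ k t * S.h k (S.pos a k)) := by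
        rw [hu k t hmem, S.traj_eq a k hmem, S.h_shear]
      rw [h1]
      refine ((S.hasDerivAt_shear (S.pos a k) k t).hasDerivWithinAt
        (s := Iic t)).congr_of_eventuallyEq ?_ (S.traj_eq a k hmem)
      have : Ioc (k / 10 : ℝ) t ∈ nhdsWithin t (Iic t) :=
        Ioc_mem_nhdsLE (by linarith)
      filter_upwards [this] with s hs
      exact S.traj_eq a k ⟨hs.1.le, hs.2.trans hmem.2⟩
  have hU := hL.union hR
  rw [Iic_union_Ici] at hU
  exact hU.mono (subset_univ _)

/-- The slot containing a time. -/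
theorem exists_slot {t : ℝ} (ht : 0 ≤ t) : ∃ k : ℕ, t ∈ Icc (k / 10 : ℝ) ((k + 1) / 10) := by
  have hk1 : (⌊10 * t⌋₊ : ℝ) ≤ 10 * t := Nat.floor_le (by linarith)
  have hk2 : 10 * t < ⌊10 * t⌋₊ + 1 := Nat.lt_floor_add_one _
  exact ⟨⌊10 * t⌋₊, by linarith, by linarith⟩

end Sched

end Vale.Agent.P113.H968
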