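import Vale.Agent.P113.Defs
import Vale.Agent.P113.Blocks
import Vale.Agent.P113.H968.Sched

/-!
# P113 (D, abstract part): the flow of the four shears simulates a block system
-/

set_option autoImplicit false

open Set

namespace Vale.Agent.P113.H968

/-- The time profiles `g 0, …, g 4`, the shear amplitudes `h1, …, h4`, the heights `z i` and the
slope `e`, with the properties which are used. -/
structure FlowData (S : BlockSystem) where
  e : ℚ
  z : Fin S.n → ℚ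
  g : ℕ → ℝ → ℝ
  G : ℕ → ℝ → ℝ
  h1 : (Fin 3 → ℝ) → ℝ
  h2 : (Fin 3 → ℝ) → ℝ
  h3 : (Fin 3 → ℝ) → ℝ
  h4 : (Fin 3 → ℝ) → ℝ
  e_pos : 0 < e
  z_pos : ∀ i, S.flag i = false → 0 < z i
  z_lt : ∀ i, S.flag i = false → z i + 2 * e < 1 / 2
  z_flag : ∀ i, S.flag i = true → 5 / 8 < z i ∧ z i + 2 * e < 7 / 8
  hasDerivAt_G : ∀ j, j ≤ 4 → ∀ t, HasDerivAt (G j) (g j t) t
  mono_G : ∀ j, j ≤ 4 → Monotone (G j)
  G_zero : ∀ t : ℝ, t ≤ 1 / 10 → G 0 t = 0
  G_one : ∀ t : ℝ, 4 / 10 ≤ t → G 0 t = 1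
  G_left : ∀ j : ℕ, 1 ≤ j → j ≤ 4 → ∀ n : ℕ, ∀ t : ℝ, (n : ℝ) ≤ t → t ≤ n + (4 + j) / 10 →
    G j t = n
  G_right : ∀ j : ℕ, 1 ≤ j → j ≤ 4 → ∀ n : ℕ, ∀ t : ℝ, (n : ℝ) + (5 + j) / 10 ≤ t → t ≤ n + 1 →
    G j t = n + 1
  indep1 : ∀ x s, h1 (Function.update x 2 s) = h1 x
  indep2 : ∀ x s, h2 (Function.update x 0 s) = h2 x
  indep3 : ∀ x s, h3 (Function.update x 1 s) = h3 x
  indep4 : ∀ x s, h4 (Function.update x 2 s) = h4 x
  val1 : ∀ (i : Fin S.n) (x : Fin 3 → ℝ), (S.a i : ℝ) ≤ x 0 → x 0 ≤ S.b i → (S.c i : ℝ) ≤ x 1 → x 1 ≤ S.d i →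
    h1 x = z i + e * (x 0 - S.a i) + e * (x 1 - S.c i)
  val2 : ∀ (i : Fin S.n) (x : Fin 3 → ℝ), S.flag i = false → (S.c i : ℝ) ≤ x 1 → x 1 ≤ S.d i →
    (z i : ℝ) ≤ x 2 → x 2 ≤ z i + 2 * e →
    h2 x = (S.a' i - S.a i) + (((S.b' i - S.a' i) / (S.b i - S.a i) - 1) / e) *
      (x 2 - z i - e * (x 1 - S.c i))
  val3 : ∀ (i : Fin S.n) (x : Fin 3 → ℝ), S.flag i = false → (S.a' i : ℝ) ≤ x 0 → x 0 ≤ S.b' i →
    (z i : ℝ) ≤ x 2 → x 2 ≤ z i + 2 * e →
    h3 x = (S.c' i - S.c i) + (((S.d' i - S.c' i) / (S.d i - S.c i) - 1) / e) *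
      (x 2 - z i - (e / ((S.b' i - S.a' i) / (S.b i - S.a i))) * (x 0 - S.a' i))
  val4 : ∀ (i : Fin S.n) (x : Fin 3 → ℝ), S.flag i = false → (S.a' i : ℝ) ≤ x 0 → x 0 ≤ S.b' i →
    (S.c' i : ℝ) ≤ x 1 → x 1 ≤ S.d' i →
    h4 x = z i + (e / ((S.b' i - S.a' i) / (S.b i - S.a i))) * (x 0 - S.a' i) +
      (e / ((S.d' i - S.c' i) / (S.d i - S.c i))) * (x 1 - S.c' i)

theorem eq_zero_of_const {f f' : ℝ → ℝ} {a b c : ℝ} (hab : a < b)
    (hder : ∀ t, HasDerivAt f (f' t) t) (hc : ∀ t ∈ Icc a b, f t = c) {t : ℝ}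
    (ht : t ∈ Icc a b) : f' t = 0 := by
  have h1 : HasDerivWithinAt f (f' t) (Icc a b) t := (hder t).hasDerivWithinAt
  have h2 : HasDerivWithinAt f 0 (Icc a b) t :=
    (hasDerivWithinAt_const t (Icc a b) c).congr hc (hc t ht)
  exact (uniqueDiffOn_Icc hab t ht).eq_deriv _ h1 h2

namespace FlowData

variable {S : BlockSystem} (D : FlowData S)

/-- The active profile in the slot `k`: `1, …, 4` for the shears, `0` for the initial
displacement, `5` for none. -/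
def kind (k : ℕ) : ℕ := if 5 ≤ k % 10 ∧ k % 10 ≤ 8 then k % 10 - 4 else if k < 5 then 0 else 5

/-- Profiles by kind. -/
noncomputable def prof : ℕ → ℝ → ℝ
  | 0 => D.g 0
  | 1 => D.g 1
  | 2 => D.g 2
  | 3 => D.g 3
  | 4 => D.g 4
  | _ => fun _ => 0

/-- Primitives by kind. -/
noncomputable def prim : ℕ → ℝ → ℝ
  | 0 => D.G 0
  | 1 => D.G 1
  | 2 => D.G 2
  | 3 => D.G 3
  | 4 => D.G 4
  | _ => fun _ => 0

/-- Amplitudes by kind. -/
noncomputable def amp (cc : ℝ) : ℕ → (Fin 3 → ℝ) → ℝ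
  | 0 => fun _ => cc
  | 1 => D.h1
  | 2 => D.h2
  | 3 => D.h3
  | 4 => fun x => - D.h4 x
  | _ => fun _ => 0

/-- Directions by kind. -/
def dir : ℕ → Fin 3
  | 1 => 2
  | 2 => 0
  | 3 => 1
  | 4 => 2
  | _ => 1

theorem hasDerivAt_prim (j : ℕ) (t : ℝ) : HasDerivAt (D.prim j) (D.prof j t) t := by
  match j with
  | 0 => exact D.hasDerivAt_G 0 (by norm_num) t
  | 1 => exact D.hasDerivAt_G 1 (by norm_num) t
  | 2 => exact D.hasDerivAt_G 2 (by norm_num) t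
  | 3 => exact D.hasDerivAt_G 3 (by norm_num) t
  | 4 => exact D.hasDerivAt_G 4 (by norm_num) t
  | n + 5 => exact hasDerivAt_const _ _

theorem indep_amp (cc : ℝ) (j : ℕ) (P : Fin 3 → ℝ) (s : ℝ) :
    D.amp cc j (Function.update P (dir j) s) = D.amp cc j P := by
  match j with
  | 0 => rfl
  | 1 => exact D.indep1 P s
  | 2 => exact D.indep2 P s
  | 3 => exact D.indep3 P s
  | 4 => exact congrArg Neg.neg (D.indep4 P s)
  | n + 5 => rfl

/-- The schedule of the four shears. -/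
noncomputable def sched (cc : ℝ) : Sched where
  θ k := D.prof (kind k)
  Th k t := D.prim (kind k) t - D.prim (kind k) (k / 10)
  h k := D.amp cc (kind k)
  d k := dir (kind k)
  hasDerivAt_Th k t := (D.hasDerivAt_prim (kind k) t).sub_const _
  Th_left _ := sub_self _
  indep k := D.indep_amp cc (kind k)

theorem kind_le (k : ℕ) : kind k ≤ 5 := by
  unfold kind
  split_ifs <;> omega

theorem g_eq_zero {j : ℕ} (hj1 : 1 ≤ j) (hj4 : j ≤ 4) {k : ℕ} (hk : kind k ≠ j) {t : ℝ}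
    (ht : t ∈ Icc (k / 10 : ℝ) ((k + 1) / 10)) : D.g j t = 0 := by
  set n := k / 10 with hn
  set r := k % 10 with hr
  have hkr : k = 10 * n + r := by omega
  have hr10 : r < 10 := Nat.mod_lt _ (by norm_num)
  have hrj : r ≤ 3 + j ∨ 5 + j ≤ r := by
    by_contra hcon
    push Not at hcon
    have : r = 4 + j := by omega
    apply hk
    unfold kind
    rw [if_pos (by omega)]
    omega
  have hkR : (k : ℝ) = 10 * n + r := by exact_mod_cast hkr
  have ht1 := ht.1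
  have ht2 := ht.2
  rw [hkR] at ht1 ht2
  have hj0 : (0 : ℝ) ≤ j := by positivity
  rcases hrj with h | h
  · have h' : (r : ℝ) ≤ 3 + j := by exact_mod_cast h
    have hr0 : (0 : ℝ) ≤ r := by positivity
    refine eq_zero_of_const (a := n) (b := n + (4 + j) / 10) (c := n) (by linarith)
      (D.hasDerivAt_G j hj4) (fun s hs => D.G_left j hj1 hj4 n s hs.1 hs.2) ⟨?_, ?_⟩
    · linarith
    · linarith
  · have h' : (5 : ℝ) + j ≤ r := by exact_mod_cast h
    have hr0 : (r : ℝ) + 1 ≤ 10 := by exact_mod_cast hr10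
    have hj4' : (j : ℝ) ≤ 4 := by exact_mod_cast hj4
    refine eq_zero_of_const (a := n + (5 + j) / 10) (b := n + 1) (c := n + 1) (by linarith)
      (D.hasDerivAt_G j hj4) (fun s hs => D.G_right j hj1 hj4 n s hs.1 hs.2) ⟨?_, ?_⟩
    · linarith
    · linarith

theorem g0_eq_zero {k : ℕ} (hk : kind k ≠ 0) {t : ℝ}
    (ht : t ∈ Icc (k / 10 : ℝ) ((k + 1) / 10)) : D.g 0 t = 0 := by
  have hk5 : 5 ≤ k := by
    by_contra hcon
    push Not at hcon
    apply hk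
    unfold kind
    have : k % 10 = k := Nat.mod_eq_of_lt (by omega)
    rw [if_neg (by omega), if_pos hcon]
  have hk5' : (5 : ℝ) ≤ k := by exact_mod_cast hk5
  have ht1 := ht.1
  refine eq_zero_of_const (a := 4 / 10) (b := t + 1) (c := 1) (by linarith)
    (D.hasDerivAt_G 0 (by norm_num)) (fun s hs => D.G_one s hs.1) ⟨by linarith, by linarith⟩

/-- The velocity field of the interface is given by the schedule. -/
theorem gives (cc : ℝ) {u : ℝ → (Fin 3 → ℝ) → Fin 3 → ℝ}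
    (hu : ∀ t, 0 ≤ t → ∀ x, u t x = ![D.g 2 t * D.h2 x, D.g 0 t * cc + D.g 3 t * D.h3 x,
      D.g 1 t * D.h1 x - D.g 4 t * D.h4 x]) :
    (D.sched cc).Gives u := by
  intro k t ht x
  have ht0 : 0 ≤ t := le_trans (by positivity) ht.1
  rw [hu t ht0 x]
  change _ = (Pi.single (dir (kind k)) (D.prof (kind k) t * D.amp cc (kind k) x) : Fin 3 → ℝ)
  have hle := kind_le k
  have e0 : kind k ≠ 0 → D.g 0 t = 0 := fun h => D.g0_eq_zero h ht
  have e1 : kind k ≠ 1 → D.g 1 t = 0 := fun h => D.g_eq_zero (by norm_num) (by norm_num) h ht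
  have e2 : kind k ≠ 2 → D.g 2 t = 0 := fun h => D.g_eq_zero (by norm_num) (by norm_num) h ht
  have e3 : kind k ≠ 3 → D.g 3 t = 0 := fun h => D.g_eq_zero (by norm_num) (by norm_num) h ht
  have e4 : kind k ≠ 4 → D.g 4 t = 0 := fun h => D.g_eq_zero (by norm_num) (by norm_num) h ht
  have hcases : kind k = 0 ∨ kind k = 1 ∨ kind k = 2 ∨ kind k = 3 ∨ kind k = 4 ∨ kind k = 5 := by
    omega
  funext i
  rcases hcases with h | h | h | h | h | h <;> rw [h] at e0 e1 e2 e3 e4 ⊢ <;>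
    fin_cases i <;> simp_all [dir, prof, amp]

/-! ### Positions -/

theorem shear_apply (cc : ℝ) (k : ℕ) (τ : ℝ) (P : Fin 3 → ℝ) :
    (D.sched cc).shear k τ P = P + Pi.single (dir (kind k)) (τ * D.amp cc (kind k) P) := rfl

theorem mass_eq (cc : ℝ) (k : ℕ) :
    (D.sched cc).mass k = D.prim (kind k) ((k + 1) / 10) - D.prim (kind k) (k / 10) := rfl

theorem Th_eq (cc : ℝ) (k : ℕ) (t : ℝ) :
    (D.sched cc).Th k t = D.prim (kind k) t - D.prim (kind k) (k / 10) := rfl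

theorem kind_lt_five {k : ℕ} (hk : k < 5) : kind k = 0 := by
  unfold kind
  have : k % 10 = k := Nat.mod_eq_of_lt (by omega)
  rw [if_neg (by omega), if_pos hk]

/-- The initial displacement. -/
theorem pos_start (cc : ℝ) (x0 y0 : ℝ) (k : ℕ) (hk : k ≤ 5) :
    (D.sched cc).pos ![x0, y0, 0] k = ![x0, y0 + D.G 0 (k / 10) * cc, 0] := by
  induction k with
  | zero =>
    have h0 : D.G 0 (((0 : ℕ) : ℝ) / 10) = 0 := D.G_zero _ (by norm_num)
    rw [h0]
    simp [Sched.pos]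
  | succ k ih =>
    rw [Sched.pos_succ, ih (by omega), shear_apply, mass_eq, kind_lt_five (by omega : k < 5)]
    funext i
    fin_cases i
    · simp [dir]
    · simp [dir, prim, amp]
      ring
    · simp [dir]

theorem pos_five (cc : ℝ) (x0 y0 : ℝ) :
    (D.sched cc).pos ![x0, y0, 0] 5 = ![x0, y0 + cc, 0] := by
  have h0 : D.G 0 (((5 : ℕ) : ℝ) / 10) = 1 := D.G_one _ (by norm_num)
  rw [D.pos_start cc x0 y0 5 le_rfl, h0, one_mul]

theorem kind_shear (n : ℕ) {j : ℕ} (h1 : 1 ≤ j) (h4 : j ≤ 4) : kind (10 * n + 4 + j) = j := by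
  unfold kind
  rw [if_pos (by omega)]
  omega

theorem kind_idle (n : ℕ) {s : ℕ} (h1 : 9 ≤ s) (h4 : s ≤ 14) : kind (10 * n + s) = 5 := by
  unfold kind
  rw [if_neg (by omega), if_neg (by omega)]

theorem prim_eq {j : ℕ} (h4 : j ≤ 4) : D.prim j = D.G j := by
  interval_cases j <;> rfl

theorem G_start {j : ℕ} (h1 : 1 ≤ j) (h4 : j ≤ 4) (n : ℕ) :
    D.G j (((10 * n + 4 + j : ℕ) : ℝ) / 10) = n := by
  have hj : (0 : ℝ) ≤ j := by positivity
  refine D.G_left j h1 h4 n _ ?_ ?_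
  · push_cast
    linarith
  · push_cast
    linarith

theorem G_end {j : ℕ} (h1 : 1 ≤ j) (h4 : j ≤ 4) (n : ℕ) :
    D.G j ((((10 * n + 4 + j : ℕ) : ℝ) + 1) / 10) = n + 1 := by
  have hj : (j : ℝ) ≤ 4 := by exact_mod_cast h4
  refine D.G_right j h1 h4 n _ ?_ ?_
  · push_cast
    linarith
  · push_cast
    linarith

theorem mass_shear (cc : ℝ) (n : ℕ) {j : ℕ} (h1 : 1 ≤ j) (h4 : j ≤ 4) :
    (D.sched cc).mass (10 * n + 4 + j) = 1 := by
  rw [mass_eq, kind_shear n h1 h4, D.prim_eq h4, D.G_start h1 h4, D.G_end h1 h4]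
  ring

theorem pos_shear (cc : ℝ) (a : Fin 3 → ℝ) (n : ℕ) {j : ℕ} (h1 : 1 ≤ j) (h4 : j ≤ 4) :
    (D.sched cc).pos a (10 * n + 4 + j + 1) = (D.sched cc).pos a (10 * n + 4 + j) +
      Pi.single (dir j) (D.amp cc j ((D.sched cc).pos a (10 * n + 4 + j))) := by
  rw [Sched.pos_succ, shear_apply, D.mass_shear cc n h1 h4, kind_shear n h1 h4, one_mul]

theorem pos_idle (cc : ℝ) (a : Fin 3 → ℝ) (n : ℕ) {s : ℕ} (h9 : 9 ≤ s) (h15 : s ≤ 15) :
    (D.sched cc).pos a (10 * n + s) = (D.sched cc).pos a (10 * n + 9) := by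
  induction s, h9 using Nat.le_induction with
  | base => rfl
  | succ s hs ih =>
    rw [← add_assoc, Sched.pos_succ, shear_apply, kind_idle n hs (by omega), ih (by omega)]
    simp [amp]

/-- The part of the shear performed at the time `t` lies between `0` and `1`. -/
theorem Th_mem (cc : ℝ) (n : ℕ) {j : ℕ} (h1 : 1 ≤ j) (h4 : j ≤ 4) {t : ℝ}
    (ht : t ∈ Icc (((10 * n + 4 + j : ℕ) : ℝ) / 10) ((((10 * n + 4 + j : ℕ) : ℝ) + 1) / 10)) :
    0 ≤ (D.sched cc).Th (10 * n + 4 + j) t ∧ (D.sched cc).Th (10 * n + 4 + j) t ≤ 1 := by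
  have hm := D.mono_G j h4
  have h5 := hm ht.1
  have h6 := hm ht.2
  rw [D.G_start h1 h4] at h5
  rw [D.G_end h1 h4] at h6
  rw [Th_eq, kind_shear n h1 h4, D.prim_eq h4, D.G_start h1 h4]
  constructor <;> linarith

/-! ### One period -/

section step

variable (cc : ℝ) (a : Fin 3 → ℝ) (n : ℕ) (i : Fin S.n) {P : ℝ × ℝ}

/-- The height reached by the first shear. -/
noncomputable def ht (P : ℝ × ℝ) : ℝ := D.z i + D.e * (P.1 - S.a i) + D.e * (P.2 - S.c i)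

theorem ht_mem (hP : S.InSrc i P) : (D.z i : ℝ) ≤ D.ht i P ∧ D.ht i P ≤ D.z i + 2 * D.e := by
  have he : (0 : ℝ) < D.e := by exact_mod_cast D.e_pos
  have h1 : (0 : ℝ) < S.a i := by exact_mod_cast S.a_pos i
  have h2 : (S.b i : ℝ) < 1 := by exact_mod_cast S.b_lt i
  have h3 : (0 : ℝ) < S.c i := by exact_mod_cast S.c_pos i
  have h4 : (S.d i : ℝ) < 1 := by exact_mod_cast S.d_lt i
  obtain ⟨p1, p2, p3, p4⟩ := hP
  unfold ht
  constructor
  · have := mul_nonneg he.le (sub_nonneg.2 p1)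
    have := mul_nonneg he.le (sub_nonneg.2 p3)
    linarith
  · have h5 : (D.e : ℝ) * (P.1 - S.a i) ≤ D.e * 1 := by gcongr; linarith
    have h6 : (D.e : ℝ) * (P.2 - S.c i) ≤ D.e * 1 := by gcongr; linarith
    linarith

theorem pos6 (hP : S.InSrc i P) (h5 : (D.sched cc).pos a (10 * n + 5) = ![P.1, P.2, 0]) :
    (D.sched cc).pos a (10 * n + 6) = ![P.1, P.2, D.ht i P] := by
  have h := D.pos_shear cc a n (j := 1) (by norm_num) (by norm_num)
  rw [show 10 * n + 4 + 1 = 10 * n + 5 from rfl] at h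
  rw [show 10 * n + 6 = 10 * n + 5 + 1 from rfl, h, h5]
  obtain ⟨p1, p2, p3, p4⟩ := hP
  have hv := D.val1 i ![P.1, P.2, 0] p1 p2 p3 p4
  funext k
  fin_cases k
  · simp [dir]
  · simp [dir]
  · simp [dir, amp]
    rw [hv]
    rfl

theorem map_mem (hP : S.InSrc i P) : (S.a' i : ℝ) ≤ (S.map i P).1 ∧ (S.map i P).1 ≤ S.b' i ∧
    (S.c' i : ℝ) ≤ (S.map i P).2 ∧ (S.map i P).2 ≤ S.d' i := by
  have h1 : (S.a i : ℝ) < S.b i := by exact_mod_cast S.ab i
  have h2 : (S.c i : ℝ) < S.d i := by exact_mod_cast S.cd i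
  have h3 : (S.a' i : ℝ) < S.b' i := by exact_mod_cast S.ab' i
  have h4 : (S.c' i : ℝ) < S.d' i := by exact_mod_cast S.cd' i
  obtain ⟨p1, p2, p3, p4⟩ := hP
  have key : ∀ a b a' b' x : ℝ, a < b → a' < b' → a ≤ x → x ≤ b →
      a' ≤ a' + (b' - a') / (b - a) * (x - a) ∧ a' + (b' - a') / (b - a) * (x - a) ≤ b' := by
    intro a b a' b' x hab hab' hx1 hx2
    have h5 : 0 < (b' - a') / (b - a) := div_pos (by linarith) (by linarith)
    constructor
    · have := mul_nonneg h5.le (sub_nonneg.2 hx1)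
      linarith
    · have h6 : (b' - a') / (b - a) * (x - a) ≤ (b' - a') / (b - a) * (b - a) := by gcongr
      rw [div_mul_cancel₀ _ (by linarith : b - a ≠ 0)] at h6
      linarith
  exact ⟨(key _ _ _ _ _ h1 h3 p1 p2).1, (key _ _ _ _ _ h1 h3 p1 p2).2,
    (key _ _ _ _ _ h2 h4 p3 p4).1, (key _ _ _ _ _ h2 h4 p3 p4).2⟩

theorem lam_pos : (0 : ℝ) < (S.b' i - S.a' i) / (S.b i - S.a i) := by
  have h1 : (S.a i : ℝ) < S.b i := by exact_mod_cast S.ab i
  have h3 : (S.a' i : ℝ) < S.b' i := by exact_mod_cast S.ab' i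
  exact div_pos (by linarith) (by linarith)

theorem mu_pos : (0 : ℝ) < (S.d' i - S.c' i) / (S.d i - S.c i) := by
  have h1 : (S.c i : ℝ) < S.d i := by exact_mod_cast S.cd i
  have h3 : (S.c' i : ℝ) < S.d' i := by exact_mod_cast S.cd' i
  exact div_pos (by linarith) (by linarith)

theorem pos7 (hP : S.InSrc i P) (hf : S.flag i = false)
    (h5 : (D.sched cc).pos a (10 * n + 5) = ![P.1, P.2, 0]) :
    (D.sched cc).pos a (10 * n + 7) = ![(S.map i P).1, P.2, D.ht i P] := by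
  have h := D.pos_shear cc a n (j := 2) (by norm_num) (by norm_num)
  rw [show 10 * n + 4 + 2 = 10 * n + 6 from rfl] at h
  rw [show 10 * n + 7 = 10 * n + 6 + 1 from rfl, h, D.pos6 cc a n i hP h5]
  have hz := D.ht_mem i hP
  obtain ⟨p1, p2, p3, p4⟩ := hP
  have he : (D.e : ℝ) ≠ 0 := by exact_mod_cast D.e_pos.ne'
  have hv := D.val2 i ![P.1, P.2, D.ht i P] hf p3 p4 hz.1 hz.2
  funext k
  fin_cases k
  · simp only [dir, amp, Fin.zero_eta, Pi.add_apply, Pi.single_eq_same]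
    rw [hv]
    simp only [Matrix.cons_val, ht, BlockSystem.map]
    field_simp
    ring
  · simp [dir]
  · simp [dir]

theorem pos8 (hP : S.InSrc i P) (hf : S.flag i = false)
    (h5 : (D.sched cc).pos a (10 * n + 5) = ![P.1, P.2, 0]) :
    (D.sched cc).pos a (10 * n + 8) = ![(S.map i P).1, (S.map i P).2, D.ht i P] := by
  have h := D.pos_shear cc a n (j := 3) (by norm_num) (by norm_num)
  rw [show 10 * n + 4 + 3 = 10 * n + 7 from rfl] at h
  rw [show 10 * n + 8 = 10 * n + 7 + 1 from rfl, h, D.pos7 cc a n i hP hf h5]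
  have hz := D.ht_mem i hP
  have hm := map_mem i hP
  have he : (D.e : ℝ) ≠ 0 := by exact_mod_cast D.e_pos.ne'
  have hl := (lam_pos (S := S) i).ne'
  have hv := D.val3 i ![(S.map i P).1, P.2, D.ht i P] hf hm.1 hm.2.1 hz.1 hz.2
  funext k
  fin_cases k
  · simp [dir]
  · simp only [dir, amp, Fin.mk_one, Pi.add_apply, Pi.single_eq_same]
    rw [hv]
    simp only [Matrix.cons_val, ht, BlockSystem.map]
    generalize (S.b' i - S.a' i : ℝ) / (S.b i - S.a i) = l at hl ⊢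
    generalize (S.d' i - S.c' i : ℝ) / (S.d i - S.c i) = m
    field_simp
    ring
  · simp [dir]

theorem pos9 (hP : S.InSrc i P) (hf : S.flag i = false)
    (h5 : (D.sched cc).pos a (10 * n + 5) = ![P.1, P.2, 0]) :
    (D.sched cc).pos a (10 * n + 9) = ![(S.map i P).1, (S.map i P).2, 0] := by
  have h := D.pos_shear cc a n (j := 4) (by norm_num) (by norm_num)
  rw [show 10 * n + 4 + 4 = 10 * n + 8 from rfl] at h
  rw [show 10 * n + 9 = 10 * n + 8 + 1 from rfl, h, D.pos8 cc a n i hP hf h5]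
  have hm := map_mem i hP
  have he : (D.e : ℝ) ≠ 0 := by exact_mod_cast D.e_pos.ne'
  have hl := (lam_pos (S := S) i).ne'
  have hmu := (mu_pos (S := S) i).ne'
  have hv := D.val4 i ![(S.map i P).1, (S.map i P).2, D.ht i P] hf hm.1 hm.2.1 hm.2.2.1 hm.2.2.2
  funext k
  fin_cases k
  · simp [dir]
  · simp [dir]
  · simp only [dir, amp, Fin.reduceFinMk, Pi.add_apply, Pi.single_eq_same]
    rw [hv]
    simp only [Matrix.cons_val, ht, BlockSystem.map]
    generalize (S.b' i - S.a' i : ℝ) / (S.b i - S.a i) = l at hl ⊢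
    generalize (S.d' i - S.c' i : ℝ) / (S.d i - S.c i) = m at hmu ⊢
    field_simp
    ring

theorem pos15 (hP : S.InSrc i P) (hf : S.flag i = false)
    (h5 : (D.sched cc).pos a (10 * n + 5) = ![P.1, P.2, 0]) :
    (D.sched cc).pos a (10 * (n + 1) + 5) = ![(S.map i P).1, (S.map i P).2, 0] := by
  rw [show 10 * (n + 1) + 5 = 10 * n + 15 by ring,
    D.pos_idle cc a n (s := 15) (by norm_num) le_rfl, D.pos9 cc a n i hP hf h5]

/-- Within one period the height stays between `0` and `1 / 2` if the box is not flagged. -/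
theorem height_mem (hP : S.InSrc i P) (hf : S.flag i = false)
    (h5 : (D.sched cc).pos a (10 * n + 5) = ![P.1, P.2, 0]) {s : ℕ} (hs5 : 5 ≤ s) (hs : s ≤ 14)
    {t : ℝ} (ht : t ∈ Icc (((10 * n + s : ℕ) : ℝ) / 10) ((((10 * n + s : ℕ) : ℝ) + 1) / 10)) :
    0 ≤ (D.sched cc).shear (10 * n + s) ((D.sched cc).Th (10 * n + s) t)
        ((D.sched cc).pos a (10 * n + s)) 2 ∧
      (D.sched cc).shear (10 * n + s) ((D.sched cc).Th (10 * n + s) t)
        ((D.sched cc).pos a (10 * n + s)) 2 ≤ 1 / 2 := by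
  have hz := D.ht_mem i hP
  have hz0 : (0 : ℝ) < D.z i := by exact_mod_cast D.z_pos i hf
  have hz1 : (D.z i : ℝ) + 2 * D.e < 1 / 2 := by
    have := D.z_lt i hf
    have h : ((D.z i + 2 * D.e : ℚ) : ℝ) < ((1 / 2 : ℚ) : ℝ) := by exact_mod_cast this
    push_cast at h
    exact h
  have hcases : s = 5 ∨ s = 6 ∨ s = 7 ∨ s = 8 ∨ 9 ≤ s := by omega
  rcases hcases with rfl | rfl | rfl | rfl | h9
  · have hT := D.Th_mem cc n (j := 1) (by norm_num) (by norm_num) ht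
    rw [show 10 * n + 4 + 1 = 10 * n + 5 from rfl] at hT
    have hk := kind_shear n (j := 1) (by norm_num) (by norm_num)
    rw [show 10 * n + 4 + 1 = 10 * n + 5 from rfl] at hk
    rw [shear_apply, hk, h5]
    obtain ⟨p1, p2, p3, p4⟩ := hP
    have hv := D.val1 i ![P.1, P.2, 0] p1 p2 p3 p4
    simp only [dir, amp, Pi.add_apply, Pi.single_eq_same]
    rw [hv]
    simp only [Matrix.cons_val, zero_add]
    change 0 ≤ _ * D.ht i P ∧ _ * D.ht i P ≤ 1 / 2
    constructor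
    · exact mul_nonneg hT.1 (by linarith)
    · calc _ ≤ 1 * D.ht i P := by gcongr; linarith; exact hT.2
        _ ≤ 1 / 2 := by linarith
  · have hk := kind_shear n (j := 2) (by norm_num) (by norm_num)
    rw [show 10 * n + 4 + 2 = 10 * n + 6 from rfl] at hk
    rw [shear_apply, hk, D.pos6 cc a n i hP h5]
    simp only [dir, Pi.add_apply]
    rw [Pi.single_eq_of_ne (by decide)]
    simp only [Matrix.cons_val, add_zero]
    constructor <;> linarith
  · have hk := kind_shear n (j := 3) (by norm_num) (by norm_num)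
    rw [show 10 * n + 4 + 3 = 10 * n + 7 from rfl] at hk
    rw [shear_apply, hk, D.pos7 cc a n i hP hf h5]
    simp only [dir, Pi.add_apply]
    rw [Pi.single_eq_of_ne (by decide)]
    simp only [Matrix.cons_val, add_zero]
    constructor <;> linarith
  · have hT := D.Th_mem cc n (j := 4) (by norm_num) (by norm_num) ht
    rw [show 10 * n + 4 + 4 = 10 * n + 8 from rfl] at hT
    have hk := kind_shear n (j := 4) (by norm_num) (by norm_num)
    rw [show 10 * n + 4 + 4 = 10 * n + 8 from rfl] at hk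
    have h9 := D.pos_shear cc a n (j := 4) (by norm_num) (by norm_num)
    rw [show 10 * n + 4 + 4 = 10 * n + 8 from rfl] at h9
    rw [show 10 * n + 8 + 1 = 10 * n + 9 from rfl, D.pos9 cc a n i hP hf h5,
      D.pos8 cc a n i hP hf h5] at h9
    have h92 := congrFun h9 2
    simp only [dir, Pi.add_apply, Pi.single_eq_same, Matrix.cons_val] at h92
    rw [shear_apply, hk, D.pos8 cc a n i hP hf h5]
    simp only [dir, Pi.add_apply, Pi.single_eq_same, Matrix.cons_val]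
    have h10 : D.amp cc 4 ![(S.map i P).1, (S.map i P).2, D.ht i P] = - D.ht i P := by linarith
    rw [h10]
    constructor
    · nlinarith [hT.2, hz.1, hz0]
    · nlinarith [hT.1, hz.1, hz0]
  · have hk := kind_idle n h9 hs
    rw [shear_apply, hk, D.pos_idle cc a n h9 (by omega), D.pos9 cc a n i hP hf h5]
    simp only [amp, mul_zero, Pi.single_zero, add_zero, Matrix.cons_val]
    norm_num

end step

/-! ### The main theorem -/

/-- Lower corner of the box. -/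
def boxLo : Fin 3 → ℚ := ![0, 0, 5 / 8]

/-- Upper corner of the box. -/
def boxHi : Fin 3 → ℚ := ![1, 1, 7 / 8]

theorem not_inBox {x : Fin 3 → ℝ} (h0 : 0 ≤ x 2) (h1 : x 2 ≤ 1 / 2) : ¬ InBox boxLo boxHi x := by
  rintro ⟨k, hk⟩
  obtain ⟨h2, h3⟩ := hk 2
  simp only [boxLo, boxHi, Matrix.cons_val] at h2 h3
  push_cast at h2 h3
  rcases le_or_gt (k 2) 0 with h | h
  · have : (k 2 : ℝ) ≤ 0 := by exact_mod_cast h
    linarith
  · have : (1 : ℝ) ≤ k 2 := by exact_mod_cast h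
    linarith

/-- The orbit of the block system is the orbit of the flow at the times `n + 1/2`. -/
theorem pos_orbit (cc x0 y0 : ℝ) {N : ℕ} {Q : ℕ → ℝ × ℝ} {i : ℕ → Fin S.n}
    (hQ0 : Q 0 = (x0, y0 + cc))
    (hQ : ∀ k < N, S.InSrc (i k) (Q k) ∧ S.flag (i k) = false ∧ Q (k + 1) = S.map (i k) (Q k)) :
    ∀ n ≤ N, (D.sched cc).pos ![x0, y0, 0] (10 * n + 5) = ![(Q n).1, (Q n).2, 0] := by
  intro n
  induction n with
  | zero =>
    intro _
    rw [hQ0]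
    exact D.pos_five cc x0 y0
  | succ n ih =>
    intro hn
    obtain ⟨h1, h2, h3⟩ := hQ n (by omega)
    rw [D.pos15 cc _ n (i n) h1 h2 (ih (by omega)), h3]

theorem exists_trajectory (cc : ℝ) {u : ℝ → (Fin 3 → ℝ) → Fin 3 → ℝ}
    (hu : ∀ t, 0 ≤ t → ∀ x, u t x = ![D.g 2 t * D.h2 x, D.g 0 t * cc + D.g 3 t * D.h3 x,
      D.g 1 t * D.h1 x - D.g 4 t * D.h4 x]) (a : Fin 3 → ℝ) : ∃ X, IsTrajectory u a X :=
  ⟨(D.sched cc).traj a, Sched.traj_zero _ a, Sched.traj_sol _ (D.gives cc hu) a⟩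

theorem unique_trajectory (cc : ℝ) {u : ℝ → (Fin 3 → ℝ) → Fin 3 → ℝ}
    (hu : ∀ t, 0 ≤ t → ∀ x, u t x = ![D.g 2 t * D.h2 x, D.g 0 t * cc + D.g 3 t * D.h3 x,
      D.g 1 t * D.h1 x - D.g 4 t * D.h4 x]) {a : Fin 3 → ℝ} {X X' : ℝ → Fin 3 → ℝ}
    (hX : IsTrajectory u a X) (hX' : IsTrajectory u a X') {t : ℝ} (ht : 0 ≤ t) : X t = X' t := by
  obtain ⟨k, hk⟩ := Sched.exists_slot ht
  rw [Sched.sol_eq_pos _ (D.gives cc hu) hX.2 k hk, Sched.sol_eq_pos _ (D.gives cc hu) hX'.2 k hk,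
    hX.1, hX'.1]

theorem hits (cc x0 y0 : ℝ) {u : ℝ → (Fin 3 → ℝ) → Fin 3 → ℝ}
    (hu : ∀ t, 0 ≤ t → ∀ x, u t x = ![D.g 2 t * D.h2 x, D.g 0 t * cc + D.g 3 t * D.h3 x,
      D.g 1 t * D.h1 x - D.g 4 t * D.h4 x]) (hH : S.HitsFlag (x0, y0 + cc))
    {X : ℝ → Fin 3 → ℝ} (hX : IsTrajectory u ![x0, y0, 0] X) :
    ∃ t, 0 ≤ t ∧ InBox boxLo boxHi (X t) := by
  obtain ⟨N, Q, i, hQ0, hQ, hN, hf⟩ := hH
  have h5 := D.pos_orbit cc x0 y0 hQ0 hQ N le_rfl
  have h6 := D.pos6 cc _ N (i N) hN h5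
  have h7 := Sched.sol_grid _ (D.gives cc hu) hX.2 (10 * N + 6)
  rw [hX.1, h6] at h7
  refine ⟨((10 * N + 6 : ℕ) : ℝ) / 10, by positivity, 0, ?_⟩
  rw [h7]
  have hz := D.ht_mem (i N) hN
  have hfl := D.z_flag (i N) hf
  have hfl1 : (5 / 8 : ℝ) < D.z (i N) := by
    have h : ((5 / 8 : ℚ) : ℝ) < ((D.z (i N) : ℚ) : ℝ) := by exact_mod_cast hfl.1
    push_cast at h
    exact h
  have hfl2 : (D.z (i N) : ℝ) + 2 * D.e < 7 / 8 := by
    have h : ((D.z (i N) + 2 * D.e : ℚ) : ℝ) < ((7 / 8 : ℚ) : ℝ) := by exact_mod_cast hfl.2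
    push_cast at h
    exact h
  have h1 : (0 : ℝ) < S.a (i N) := by exact_mod_cast S.a_pos (i N)
  have h2 : (S.b (i N) : ℝ) < 1 := by exact_mod_cast S.b_lt (i N)
  have h3 : (0 : ℝ) < S.c (i N) := by exact_mod_cast S.c_pos (i N)
  have h4 : (S.d (i N) : ℝ) < 1 := by exact_mod_cast S.d_lt (i N)
  obtain ⟨p1, p2, p3, p4⟩ := hN
  intro j
  fin_cases j
  · simp [boxLo, boxHi]
    constructor <;> linarith
  · simp [boxLo, boxHi]
    constructor <;> linarith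
  · simp [boxLo, boxHi]
    constructor <;> linarith

theorem avoids (cc x0 y0 : ℝ) {u : ℝ → (Fin 3 → ℝ) → Fin 3 → ℝ}
    (hu : ∀ t, 0 ≤ t → ∀ x, u t x = ![D.g 2 t * D.h2 x, D.g 0 t * cc + D.g 3 t * D.h3 x,
      D.g 1 t * D.h1 x - D.g 4 t * D.h4 x]) (hR : S.RunsForever (x0, y0 + cc))
    {X : ℝ → Fin 3 → ℝ} (hX : IsTrajectory u ![x0, y0, 0] X) {t : ℝ} (ht : 0 ≤ t) :
    ¬ InBox boxLo boxHi (X t) := by
  obtain ⟨Q, i, hQ0, hQ⟩ := hR
  obtain ⟨k, hk⟩ := Sched.exists_slot ht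
  have h1 := Sched.sol_eq_pos _ (D.gives cc hu) hX.2 k hk
  rw [hX.1] at h1
  rw [h1]
  rcases lt_or_ge k 5 with hk5 | hk5
  · rw [shear_apply, kind_lt_five hk5, D.pos_start cc x0 y0 k (by omega)]
    refine not_inBox ?_ ?_ <;> simp [dir]
  · obtain ⟨n, s, hs5, hs14, rfl⟩ : ∃ n s, 5 ≤ s ∧ s ≤ 14 ∧ k = 10 * n + s :=
      ⟨(k - 5) / 10, (k - 5) % 10 + 5, by omega, by omega, by omega⟩
    have h5 := D.pos_orbit cc x0 y0 (N := n) hQ0 (fun k _ => hQ k) n le_rfl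
    obtain ⟨g1, g2, _⟩ := hQ n
    have h6 := D.height_mem cc _ n (i n) g1 g2 h5 hs5 hs14 hk
    exact not_inBox h6.1 h6.2

/-- **The flow theorem (abstract part).** -/
theorem flow_abstract (cc x0 y0 : ℝ) {u : ℝ → (Fin 3 → ℝ) → Fin 3 → ℝ}
    (hu : ∀ t, 0 ≤ t → ∀ x, u t x = ![D.g 2 t * D.h2 x, D.g 0 t * cc + D.g 3 t * D.h3 x,
      D.g 1 t * D.h1 x - D.g 4 t * D.h4 x]) :
    (∃ X, IsTrajectory u ![x0, y0, 0] X) ∧
    (∀ X X', IsTrajectory u ![x0, y0, 0] X → IsTrajectory u ![x0, y0, 0] X' →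
      ∀ t, 0 ≤ t → X t = X' t) ∧
    (S.HitsFlag (x0, y0 + cc) → ∀ X, IsTrajectory u ![x0, y0, 0] X →
      ∃ t, 0 ≤ t ∧ InBox boxLo boxHi (X t)) ∧
    (S.RunsForever (x0, y0 + cc) → ∀ X, IsTrajectory u ![x0, y0, 0] X →
      ∀ t, 0 ≤ t → ¬ InBox boxLo boxHi (X t)) :=
  ⟨D.exists_trajectory cc hu _, fun _ _ hX hX' _ ht => D.unique_trajectory cc hu hX hX' ht,
    fun hH _ hX => D.hits cc x0 y0 hu hH hX, fun hR _ hX _ ht => D.avoids cc x0 y0 hu hR hX ht⟩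

end FlowData

end Vale.Agent.P113.H968
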